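import Vale.Agent.P024.Q1.Spec
import Vale.Agent.P024.H244.Kill

/-!
Block (8) [KILL].
-/

namespace Vale.Agent.P024.H539.Q1

open scoped NumberField Topology
open IsDedekindDomain NumberField Filter Vale.Agent.P024 Vale.Agent.P024.Q1

section Ring

variable {H A : Type*} [Group H] [CommGroup A] (W : Subgroup H) [hW : W.Normal]

theorem ract_yel (g z f : H) (x : W →* A) :
    ract W (yel (g : H ⧸ W) (z : H ⧸ W) (f : H ⧸ W) 1) x =
      cj W g (∏ j ∈ Finset.range (orderOf (z : H ⧸ W)), cj W (z ^ j) (cj W f x / x)) /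
        ∏ j ∈ Finset.range (orderOf (z : H ⧸ W)), cj W (z ^ j) (cj W f x / x) := by
  have h1 : yel (g : H ⧸ W) (z : H ⧸ W) (f : H ⧸ W) 1 =
      (MonoidAlgebra.of ℤ (H ⧸ W) (g : H ⧸ W) - 1) *
        ((∑ j ∈ Finset.range (orderOf (z : H ⧸ W)),
          MonoidAlgebra.of ℤ (H ⧸ W) ((z ^ j : H) : H ⧸ W)) *
        (MonoidAlgebra.of ℤ (H ⧸ W) (f : H ⧸ W) - 1)) := by
    rw [yel, map_one, mul_one, mul_assoc]
    rfl
  have h2 : ract W ((∑ j ∈ Finset.range (orderOf (z : H ⧸ W)),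
          MonoidAlgebra.of ℤ (H ⧸ W) ((z ^ j : H) : H ⧸ W)) *
        (MonoidAlgebra.of ℤ (H ⧸ W) (f : H ⧸ W) - 1)) x =
      ∏ j ∈ Finset.range (orderOf (z : H ⧸ W)), cj W (z ^ j) (cj W f x / x) := by
    rw [ract_mul, ract_sub, ract_of, ract_one, ract_sum]
    refine Finset.prod_congr rfl fun j _ => ?_
    rw [ract_of]
  rw [h1, ract_mul, h2, ract_sub, ract_of, ract_one]

theorem cj_congr (s t : H) (h : s⁻¹ * t ∈ W) (ψ : W →* A) : cj W t ψ = cj W s ψ := by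
  have : t = s * (s⁻¹ * t) := by group
  rw [this, cj_mul, cj_of_mem W _ h]

end Ring

section Prods

variable {A : Type*} [CommMonoid A]

theorem prod_range_mul (F : ℕ → A) (d R : ℕ) :
    ∏ i ∈ Finset.range (d * R), F i =
      ∏ j ∈ Finset.range R, ∏ i ∈ Finset.range d, F (d * j + i) := by
  induction R with
  | zero => simp
  | succ R ih => rw [Nat.mul_succ, Finset.prod_range_add, ih, Finset.prod_range_succ]

theorem prod_range_per (F : ℕ → A) (e R : ℕ) (hF : ∀ j, F (e + j) = F j) :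
    ∏ i ∈ Finset.range (e * R), F i = (∏ i ∈ Finset.range e, F i) ^ R := by
  have h : ∀ k j, F (e * k + j) = F j := by
    intro k
    induction k with
    | zero => intro j; simp
    | succ k ih => intro j; rw [Nat.mul_succ, add_assoc, ih, hF]
  rw [prod_range_mul]
  simp [h]

end Prods

theorem continuous_cj {H A : Type*} [Group H] [TopologicalSpace H] [IsTopologicalGroup H]
    [CommGroup A] [TopologicalSpace A] (W : Subgroup H) [hW : W.Normal] (s : H) (ψ : W →* A)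
    (hψ : Continuous ψ) : Continuous (cj W s ψ) := by
  have h : (cj W s ψ : W → A) = fun h : W =>
      ψ ⟨s⁻¹ * h * s, by simpa using hW.conj_mem h h.2 s⁻¹⟩ := funext fun h => cj_apply W s ψ h
  rw [h]
  refine hψ.comp (Continuous.subtype_mk ?_ _)
  fun_prop

theorem propKill.{u, v, w} (hcore : PropCore.{u}) : PropKill.{u, v, w} := by
  intro C _ _ _ _ F E _ _ _ _ _ hsc U hU α hα hαs M hM hMU hMo W hW hWo hWM M' hM'M hM' hM'o hM'W
    p hp hp2 φ f hinf d hd hd0 hdi g hg x hx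
  have _ : CharZero E := charZero_of_injective_algebraMap (algebraMap F E).injective
  have _ : Algebra.IsAlgebraic ℚ E := Algebra.IsAlgebraic.trans ℚ F E
  set θ : W →* ℤ_[p]ˣ := cj W f x / x with hθ
  set zt : E ≃ₐ[F] E := α ⟨φ ^ d, hd⟩ with hzt
  set e : ℕ := orderOf (zt : (E ≃ₐ[F] E) ⧸ W) with he
  set w : W →* ℤ_[p]ˣ := ∏ j ∈ Finset.range e, cj W (zt ^ j) θ
    with hw
  have hθc : Continuous θ := (continuous_cj W f x hx).div' hx
  -- the restriction of `α` to `M'`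
  let a : M' →* W :=
    { toFun := fun h => ⟨α ⟨h, hMU (hM'M h.2)⟩, hM'W h h.2⟩
      map_one' := by
        ext1
        exact map_one α
      map_mul' := fun h k => by
        ext1
        exact map_mul α ⟨h, hMU (hM'M h.2)⟩ ⟨k, hMU (hM'M k.2)⟩ }
  have hac : Continuous a := by
    refine Continuous.subtype_mk (hα.comp ?_) _
    exact Continuous.subtype_mk continuous_subtype_val _
  let Ψ : M' →* ℤ_[p]ˣ := (powMonoidHom (p - 1)).comp (θ.comp a)
  have hΨc : Continuous Ψ := (hθc.comp hac).pow (p - 1)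
  have hΨ : ∀ h : M', Ψ h = θ (a h) ^ (p - 1) := fun h => rfl
  -- the decomposition groups
  have hkill : {q : ℕ | ∃ (O : ValuationSubring C) (φ' : C ≃ₐ[ℚ] C), FrobQ O q φ' ∧
      φ⁻¹ * φ' ∈ M' ∧ ∀ (s : C ≃ₐ[ℚ] C) (hs : s ∈ M'), Stab O s → Ψ ⟨s, hs⟩ = 1}.Infinite := by
    refine hinf.mono ?_
    rintro q ⟨O, V, φ', f', u, hatt, hfrob, huV, hf'V, hf'p, hφ, hf⟩
    refine ⟨O, φ', hfrob, hφ, fun s hs hsO => ?_⟩
    obtain ⟨hO, hV, hpO, hpV, hst⟩ := hatt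
    have h1 := (hst ⟨s, hMU (hM'M hs)⟩ hsO).1
    have h2 := H244.Kill.kill hp2 W hWo x hx V hV hpV f' hf'V hf'p (a ⟨s, hs⟩)
      ⟨f'⁻¹ * (a ⟨s, hs⟩ : E ≃ₐ[F] E) * f', by simpa using hW.conj_mem _ (a ⟨s, hs⟩).2 f'⁻¹⟩ h1 rfl
    rw [← cj_apply W f' x, cj_congr W f f' hf] at h2
    rw [hΨ, hθ, MonoidHom.div_apply, div_pow, h2, div_self']
  -- finite indices
  have hM'fi : M'.FiniteIndex := by
    have _ : IsAlgClosure ℚ C := ⟨inferInstance, inferInstance⟩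
    have _ : IsGalois ℚ C := IsAlgClosure.isGalois ℚ C
    have _ : Finite ((C ≃ₐ[ℚ] C) ⧸ M') := Subgroup.quotient_finite_of_isOpen M' hM'o
    exact Subgroup.finiteIndex_of_finite_quotient
  have hWfi : W.FiniteIndex := by
    have _ : Finite ((E ≃ₐ[F] E) ⧸ W) := Subgroup.quotient_finite_of_isOpen W hWo
    exact Subgroup.finiteIndex_of_finite_quotient
  have hfq : Finite ((E ≃ₐ[F] E) ⧸ W) := Subgroup.finite_quotient_of_finiteIndex
  have he0 : 0 < e := orderOf_pos _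
  set r : ℕ := M'.index with hr
  have hr0 : 0 < r := Nat.pos_of_ne_zero Subgroup.FiniteIndex.index_ne_zero
  have hze : zt ^ e ∈ W := by
    rw [← QuotientGroup.eq_one_iff, QuotientGroup.mk_pow, pow_orderOf_eq_one]
  have hk : φ ^ (d * (e * r)) ∈ M' := by
    rw [← mul_assoc, pow_mul]
    exact M'.pow_index_mem _
  obtain ⟨m, hm, hcm⟩ := hcore C M' hM' hM'o p hp2 Ψ hΨc φ hkill (d * (e * r)) hk
  have hp1 : 0 < p - 1 := Nat.sub_pos_of_lt hp.out.one_lt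
  -- the elements `u` of `M'` with trivial images
  have hcj : ∀ (s : E ≃ₐ[F] E) (ψ : W →* ℤ_[p]ˣ) (y y' : W),
      (y' : E ≃ₐ[F] E) = s * y * s⁻¹ → ψ y' = cj W s⁻¹ ψ y := by
    intro s ψ y y' hy
    rw [cj_apply]
    congr 1
    ext1
    rw [hy]
    simp
  have hrefl : ∏ j ∈ Finset.range e, cj W (zt ^ j)⁻¹ θ = w := by
    set G : ℕ → (W →* ℤ_[p]ˣ) := fun j => cj W (zt ^ j) θ with hG
    have hG1 : ∀ j, j ≤ e → cj W (zt ^ j)⁻¹ θ = G (e - j) := by
      intro j hj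
      rw [hG]
      refine cj_congr W _ _ ?_ θ
      have h1 : (zt ^ (e - j))⁻¹ * (zt ^ j)⁻¹ = (zt ^ e)⁻¹ := by
        rw [← mul_inv_rev, ← pow_add, Nat.add_sub_cancel' hj]
      rw [h1]
      exact W.inv_mem hze
    have hGe : G e = G 0 := by
      rw [hG]
      refine cj_congr W _ _ ?_ θ
      rw [pow_zero, inv_one, one_mul]
      exact hze
    have h1 : ∏ j ∈ Finset.range e, cj W (zt ^ j)⁻¹ θ = ∏ j ∈ Finset.range e, G (j + 1) := by
      rw [← Finset.prod_range_reflect (fun j => G (j + 1)) e]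
      refine Finset.prod_congr rfl fun j hj => ?_
      have hj' := Finset.mem_range.1 hj
      rw [hG1 j hj'.le]
      congr 1
      omega
    rw [h1]
    have h2 := Finset.prod_range_succ' G e
    rw [Finset.prod_range_succ, hGe] at h2
    exact (mul_right_cancel h2).symm
  have hu : ∀ (u : C ≃ₐ[ℚ] C) (hu : u ∈ M'), (∀ i, 0 < i → i < d →
      α ⟨φ ^ i * u * (φ ^ i)⁻¹, hMU (hM.conj_mem u (hM'M hu) (φ ^ i))⟩ = 1) →
      w (a ⟨u, hu⟩) ^ (r * (p - 1) * m) = 1 := by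
    intro u hu hui
    have h0 := hcm u hu
    rw [prod_range_mul] at h0
    have h1 : ∀ j ∈ Finset.range (e * r), ∏ i ∈ Finset.range d,
        Ψ ⟨φ ^ (d * j + i) * u * (φ ^ (d * j + i))⁻¹, hM'.conj_mem u hu (φ ^ (d * j + i))⟩ =
        cj W (zt ^ j)⁻¹ θ (a ⟨u, hu⟩) ^ (p - 1) := by
      intro j _
      have h2 : ∀ i, α ⟨φ ^ (d * j + i) * u * (φ ^ (d * j + i))⁻¹,
          hMU (hM'M (hM'.conj_mem u hu (φ ^ (d * j + i))))⟩ = zt ^ j *
          α ⟨φ ^ i * u * (φ ^ i)⁻¹, hMU (hM.conj_mem u (hM'M hu) (φ ^ i))⟩ * (zt ^ j)⁻¹ := by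
        intro i
        rw [hzt, ← map_pow, ← map_mul, ← map_inv, ← map_mul]
        congr 1
        ext1
        simp only [Subgroup.coe_mul, Subgroup.coe_inv, SubmonoidClass.coe_pow]
        rw [pow_add, pow_mul]
        group
      rw [Finset.prod_eq_single_of_mem 0 (Finset.mem_range.2 hd0)]
      · rw [hΨ]
        congr 1
        refine hcj (zt ^ j) θ _ _ ?_
        change α _ = _
        rw [h2 0]
        congr 2
      · intro i hi hi0
        rw [hΨ]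
        have h3 : a ⟨φ ^ (d * j + i) * u * (φ ^ (d * j + i))⁻¹,
            hM'.conj_mem u hu (φ ^ (d * j + i))⟩ = 1 := by
          ext1
          change α _ = 1
          rw [h2 i, hui i (Nat.pos_of_ne_zero hi0) (Finset.mem_range.1 hi), mul_one,
            mul_inv_cancel]
        rw [h3, map_one, one_pow]
    rw [Finset.prod_congr rfl h1, Finset.prod_pow, ← MonoidHom.finsetProd_apply,
      prod_range_per _ e r, hrefl] at h0
    · rw [pow_mul, pow_mul, ← MonoidHom.pow_apply]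
      exact h0
    · intro j
      refine cj_congr W _ _ ?_ θ
      rw [inv_inv, pow_add, mul_inv_rev, mul_inv_cancel_left]
      exact W.inv_mem hze
  obtain ⟨hg', hhg, rfl, hgi⟩ := hg
  refine ⟨r * (r * (p - 1) * m), Nat.mul_pos hr0 (Nat.mul_pos (Nat.mul_pos hr0 hp1) hm), ?_⟩
  ext1 τ
  obtain ⟨t, ht, htτ⟩ := hWM τ τ.2
  have hy := ract_yel W (α ⟨hg', hMU hhg⟩) zt f x
  rw [← hθ, ← he, ← hw] at hy
  rw [hy]
  -- the commutator
  set u : C ≃ₐ[ℚ] C := hg'⁻¹ * t * hg' * t⁻¹ with hu'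
  have hur : u ^ r ∈ M' := M'.pow_index_mem u
  have huM : u ∈ M :=
    M.mul_mem (M.mul_mem (M.mul_mem (M.inv_mem hhg) ht) hhg) (M.inv_mem ht)
  have hαu : ∀ i, α ⟨φ ^ i * u * (φ ^ i)⁻¹, hMU (hM.conj_mem u huM (φ ^ i))⟩ =
      (α ⟨φ ^ i * hg' * (φ ^ i)⁻¹, hMU (hM.conj_mem hg' hhg (φ ^ i))⟩)⁻¹ *
      α ⟨φ ^ i * t * (φ ^ i)⁻¹, hMU (hM.conj_mem t ht (φ ^ i))⟩ *
      α ⟨φ ^ i * hg' * (φ ^ i)⁻¹, hMU (hM.conj_mem hg' hhg (φ ^ i))⟩ *
      (α ⟨φ ^ i * t * (φ ^ i)⁻¹, hMU (hM.conj_mem t ht (φ ^ i))⟩)⁻¹ := by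
    intro i
    rw [← map_inv, ← map_inv, ← map_mul, ← map_mul, ← map_mul]
    congr 1
    ext1
    simp only [Subgroup.coe_mul, Subgroup.coe_inv, hu']
    group
  have hαur : ∀ i, α ⟨φ ^ i * u ^ r * (φ ^ i)⁻¹, hMU (hM.conj_mem _ (hM'M hur) (φ ^ i))⟩ =
      (α ⟨φ ^ i * u * (φ ^ i)⁻¹, hMU (hM.conj_mem u huM (φ ^ i))⟩) ^ r := by
    intro i
    rw [← map_pow]
    congr 1
    ext1
    simp only [SubmonoidClass.coe_pow, conj_pow]
  have h1 := hu (u ^ r) hur (fun i hi hid => by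
    rw [hαur, hαu, hgi i hi hid, inv_one, one_mul, mul_one, mul_inv_cancel, one_pow])
  have h2 : w (a ⟨u ^ r, hur⟩) = ((cj W (α ⟨hg', hMU hhg⟩) w / w) τ) ^ r := by
    rw [MonoidHom.div_apply, cj_apply, ← map_div, ← map_pow]
    congr 1
    ext1
    have h3 := hαur 0
    rw [hαu 0] at h3
    have h4 : ((a ⟨u ^ r, hur⟩ : W) : E ≃ₐ[F] E) =
        α ⟨φ ^ 0 * u ^ r * (φ ^ 0)⁻¹, hMU (hM.conj_mem _ (hM'M hur) (φ ^ 0))⟩ := by
      change α _ = α _
      congr 1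
    have h5 : ∀ (s : C ≃ₐ[ℚ] C) (hs : s ∈ M),
        α ⟨φ ^ 0 * s * (φ ^ 0)⁻¹, hMU (hM.conj_mem s hs (φ ^ 0))⟩ = α ⟨s, hMU hs⟩ := by
      intro s hs
      congr 1
    rw [h4, h3, h5 hg' hhg, h5 t ht, htτ, SubmonoidClass.coe_pow, div_eq_mul_inv,
      Subgroup.coe_mul, Subgroup.coe_inv]
  rw [MonoidHom.pow_apply, pow_mul, ← h2, h1, MonoidHom.one_apply]

end Vale.Agent.P024.H539.Q1
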